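import Vale.Agent.P284W16.Defs
import Mathlib.LinearAlgebra.AffineSpace.AffineEquiv

/-!
# P284: crystallographic groups, holomorphic functions on coverings, holomorphic convexity
-/

open Filter Topology
open scoped Manifold ContDiff

namespace Vale.Agent.N284

open Vale.Agent.P272.K Vale.Agent.P284W16

section

variable {V : Type} [AddCommGroup V] [Module ℂ V]

/-- `Q` is a complex crystallographic group: a group of complex affine transformations of `V` in
which the translations by the vectors of some lattice `Λ` form a subgroup `T` of finite index. -/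
def Crystallographic [TopologicalSpace V] (Q : Subgroup (V ≃ᵃ[ℂ] V)) : Prop :=
  ∃ (Λ : Submodule ℤ V) (T : Subgroup (V ≃ᵃ[ℂ] V)), DiscreteTopology Λ ∧
    Submodule.span ℝ (Λ : Set V) = ⊤ ∧ (∀ g, g ∈ T ↔ ∃ v ∈ Λ, ∀ z, g z = z + v) ∧
    T ≤ Q ∧ (T.subgroupOf Q).FiniteIndex

/-- Through `F`, the deck transformations of `p` induce exactly the elements of `Q`. -/
def Induces {X E : Type} [TopologicalSpace E] (p : E → X) (F : E → V)
    (Q : Subgroup (V ≃ᵃ[ℂ] V)) : Prop :=
  (∀ φ : E ≃ₜ E, p ∘ φ = p → ∃ g ∈ Q, F ∘ φ = g ∘ F) ∧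
    ∀ g ∈ Q, ∃ φ : E ≃ₜ E, p ∘ φ = p ∧ F ∘ φ = g ∘ F

end

/-- `G` is isomorphic to a complex crystallographic group of `ℂ^q`. -/
def CrystGroup (q : ℕ) (G : Type) [Group G] : Prop :=
  ∃ Q : Subgroup (Cm q ≃ᵃ[ℂ] Cm q), Crystallographic Q ∧ Nonempty (Q ≃* G)

/-- `G` is the fundamental group of a special compact Kähler manifold of dimension `n`. -/
def SpecialGroup (n : ℕ) (G : Type) [Group G] : Prop :=
  ∃ (X : Type) (_ : TopologicalSpace X) (_ : T2Space X) (_ : CompactSpace X) (_ : ConnectedSpace X)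
    (_ : ChartedSpace (Cm n) X) (_ : IsManifold 𝓘(ℂ, Cm n) ω X),
    (∃ w : Chart n X → Cm n → Matrix (Fin n) (Fin n) ℂ, IsKahler w) ∧ IsSpecial n X ∧
    ∃ x : X, Nonempty (FundamentalGroup X x ≃* G)

variable (n : ℕ) {X E : Type} [TopologicalSpace X] [ChartedSpace (Cm n) X] [TopologicalSpace E]

/-- `F` is holomorphic on the covering space `E` of `X`: near each point it is an analytic function
of the coordinates of `X`. -/
def Holo (p : E → X) {V : Type} [NormedAddCommGroup V] [NormedSpace ℂ V] (F : E → V) : Prop :=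
  ∀ (y : E) (e : Chart n X), At e (p y) → ∃ f : Cm n → V,
    AnalyticAt ℂ f (e (p y)) ∧ ∀ᶠ y' in 𝓝 y, F y' = f (e (p y'))

/-- The covering space `E` of `X` is holomorphically convex: the holomorphic hull of every compact
set is compact. -/
def HolConvex (p : E → X) : Prop :=
  ∀ K : Set E, IsCompact K → IsCompact
    {y | ∀ f : E → ℂ, Holo n p f → ∀ C : ℝ, (∀ z ∈ K, ‖f z‖ ≤ C) → ‖f y‖ ≤ C}

end Vale.Agent.N284
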