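import Vale.Agent.N284.Flat

/-!
# P284: the quotient of `ℂ^q` by a torsion free crystallographic group is Kähler and special
-/

open scoped Manifold ContDiff Topology ComplexOrder
open Filter Set

noncomputable section

namespace Vale.Agent.N284

open Vale.Agent.P272.K Vale.Agent.P284.H248

variable {q : ℕ} {Q : Subgroup (Cm q ≃ᵃ[ℂ] Cm q)} {X : Type} [TopologicalSpace X]
  [ChartedSpace (Cm q) X] {π : Cm q → X}

/-- matrix of the linear part -/
def lmat (g : Cm q ≃ᵃ[ℂ] Cm q) : Matrix (Fin q) (Fin q) ℂ :=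
  LinearMap.toMatrix' g.linear.toLinearMap

theorem lmat_mul (g h : Cm q ≃ᵃ[ℂ] Cm q) : lmat (g * h) = lmat g * lmat h := by
  unfold lmat
  rw [← LinearMap.toMatrix'_comp]
  rfl

omit [ChartedSpace (Cm q) X] in
theorem jacM_eq {e e' : Chart q X} {x : X} {g : Cm q ≃ᵃ[ℂ] Cm q}
    (hg : (fun z => e' (e.symm z)) =ᶠ[𝓝 (e x)] g) : jacM e e' x = lmat g := by
  ext p i
  have h1 : HasFDerivAt (fun z => e' (e.symm z) p)
      (((ContinuousLinearMap.proj p).comp
        (LinearMap.toContinuousLinearMap g.linear.toLinearMap)).restrictScalars ℝ) (e x) := by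
    have h2 := ((ContinuousLinearMap.proj (R := ℂ) (φ := fun _ : Fin q => ℂ) p).hasFDerivAt.comp
      (e x) ((aff_hasFDerivAt g (e x)).congr_of_eventuallyEq hg)).restrictScalars ℝ
    exact h2
  have h3 : (Pi.single i Complex.I : Cm q) = Complex.I • (Pi.single i 1 : Cm q) := by
    rw [← Pi.single_smul, smul_eq_mul, mul_one]
  simp only [jacM, Matrix.of_apply, dz, h1.fderiv, lmat, LinearMap.toMatrix'_apply, h3]
  simp only [ContinuousLinearMap.coe_restrictScalars', map_smul, smul_eq_mul,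
    ContinuousLinearMap.comp_apply, ContinuousLinearMap.proj_apply,
    LinearMap.coe_toContinuousLinearMap', ← mul_assoc, Complex.I_mul_I]
  ring_nf

theorem exists_inv (hQ : Crystallographic Q) : ∃ H : Matrix (Fin q) (Fin q) ℂ, H.PosDef ∧
    ∀ g ∈ Q, H = (lmat g).transpose * H * (lmat g).map (starRingEnd ℂ) := by
  classical
  obtain ⟨Λ, T, -, -, hT, -, hfi⟩ := hQ
  have hT1 : ∀ t ∈ T, lmat t = 1 := by
    intro t ht
    obtain ⟨v, -, hv⟩ := (hT t).1 ht
    have h1 : t.linear.toLinearMap = LinearMap.id := by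
      refine LinearMap.ext fun z => ?_
      have h2 := aff_eq t z
      rw [hv, hv, zero_add] at h2
      exact (add_right_cancel h2).symm
    rw [lmat, h1, LinearMap.toMatrix'_id]
  let φ : Q →* Matrix (Fin q) (Fin q) ℂ :=
    { toFun := fun g => lmat g.1
      map_one' := hT1 1 T.one_mem
      map_mul' := fun g h => lmat_mul g.1 h.1 }
  have hfin : (Set.range φ).Finite := by
    refine (Set.finite_range fun c : Q ⧸ T.subgroupOf Q => φ c.out).subset ?_
    rintro _ ⟨g, rfl⟩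
    refine ⟨(g : Q ⧸ T.subgroupOf Q), ?_⟩
    have h1 : (g : Q ⧸ T.subgroupOf Q).out⁻¹ * g ∈ T.subgroupOf Q := by
      rw [← QuotientGroup.eq]
      exact QuotientGroup.out_eq' _
    have h2 : φ ((g : Q ⧸ T.subgroupOf Q).out⁻¹ * g) = 1 := hT1 _ h1
    calc φ (g : Q ⧸ T.subgroupOf Q).out
        = φ (g : Q ⧸ T.subgroupOf Q).out * φ ((g : Q ⧸ T.subgroupOf Q).out⁻¹ * g) := by
          rw [h2, mul_one]
      _ = φ g := by rw [← map_mul, mul_inv_cancel_left]
  refine ⟨∑ A ∈ hfin.toFinset, A.transpose * A.map (starRingEnd ℂ), ?_, fun g hg => ?_⟩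
  · have h1 : (1 : Matrix (Fin q) (Fin q) ℂ) ∈ hfin.toFinset :=
      hfin.mem_toFinset.2 ⟨1, φ.map_one⟩
    rw [← Finset.add_sum_erase _ _ h1]
    refine Matrix.PosDef.add_posSemidef (by simpa using Matrix.PosDef.one) ?_
    refine Matrix.posSemidef_sum _ fun A _ => ?_
    have h2 : A.transpose = (A.map (starRingEnd ℂ)).conjTranspose := by
      ext i j
      simp
    rw [h2]
    exact Matrix.posSemidef_conjTranspose_mul_self _
  · rw [Finset.mul_sum, Finset.sum_mul]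
    symm
    obtain ⟨g', hg'⟩ : ∃ g' : Q, g' = ⟨g, hg⟩ := ⟨_, rfl⟩
    have hg2 : lmat g = φ g' := by rw [hg']; rfl
    rw [hg2]
    refine Finset.sum_nbij' (fun A => A * φ g') (fun A => A * φ (g'⁻¹ : Q)) ?_ ?_ ?_ ?_ ?_
    · intro A hA
      obtain ⟨a, rfl⟩ := hfin.mem_toFinset.1 hA
      exact hfin.mem_toFinset.2 ⟨a * g', φ.map_mul _ _⟩
    · intro A hA
      obtain ⟨a, rfl⟩ := hfin.mem_toFinset.1 hA
      exact hfin.mem_toFinset.2 ⟨a * g'⁻¹, φ.map_mul _ _⟩
    · intro A _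
      rw [mul_assoc, ← map_mul, mul_inv_cancel, map_one, mul_one]
    · intro A _
      rw [mul_assoc, ← map_mul, inv_mul_cancel, map_one, mul_one]
    · intro A _
      rw [Matrix.transpose_mul, Matrix.map_mul]
      simp only [Matrix.mul_assoc]

theorem Flat.kahler (hQ : Crystallographic Q) (h : Flat Q π) :
    ∃ w : Chart q X → Cm q → Matrix (Fin q) (Fin q) ℂ, IsKahler w := by
  obtain ⟨H, hH, hinv⟩ := exists_inv hQ
  refine ⟨fun _ _ => H, ⟨fun _ _ _ _ _ => contDiffAt_const, fun _ _ _ => hH,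
    fun e e' x he he' => ?_⟩, fun e x _ i j k => by simp [dz]⟩
  obtain ⟨g, hg, hg'⟩ := h.trans e e' x he he'
  rw [jacM_eq hg']
  exact hinv g hg

theorem Flat.at_of (h : Flat Q π) {e : Chart q X} (he : e ∈ atlas (Cm q) X) {z : Cm q}
    (hz : z ∈ e.target) : At e (π z) ∧ e (π z) = z := by
  rw [← h.symm e he]
  exact ⟨⟨he, e.map_target hz⟩, e.right_inv hz⟩

/-- the value of the form does not depend on the chart, up to translations -/
theorem Flat.form_eq (hf : ∀ g ∈ Q, ∀ z, g z = z → g = 1) (h : Flat Q π) {L : LineBundle q X}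
    {p : ℕ} (φ : Mor L p) {e e' : Chart q X} (he : e ∈ atlas (Cm q) X)
    (he' : e' ∈ atlas (Cm q) X) {z v : Cm q} (hv : AffineEquiv.constVAdd ℂ (Cm q) v ∈ Q)
    (hz : z ∈ e.target) (hz' : v + z ∈ e'.target) {i : L.ι} (hi : π z ∈ L.U i) :
    φ.form i e z = φ.form i e' (v + z) := by
  obtain ⟨h1, h2⟩ := h.at_of he hz
  obtain ⟨h3, h4⟩ := h.at_of he' hz'
  have h5 : π (v + z) = π z := h.inv _ hv z
  rw [h5] at h3 h4
  obtain ⟨g, hg, hg'⟩ := h.trans e e' (π z) h1 h3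
  have h6 : g z = v + z := by
    have := hg'.eq_of_nhds
    simp only [h2, h.symm e he, h4] at this
    exact this.symm
  have h7 : g = AffineEquiv.constVAdd ℂ (Cm q) v := by
    have h8 := hf ((AffineEquiv.constVAdd ℂ (Cm q) v)⁻¹ * g) (Q.mul_mem (Q.inv_mem hv) hg) z (by
      rw [AffineEquiv.coe_mul, Function.comp_apply, h6]
      exact (AffineEquiv.constVAdd ℂ (Cm q) v).symm_apply_apply z)
    exact (inv_mul_eq_one.1 h8).symm
  have h9 := φ.change i e e' (π z) h1 h3 hi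
  rw [((aff_hasFDerivAt g _).congr_of_eventuallyEq hg').fderiv, h2, h4, h7] at h9
  rw [h9]
  rfl

theorem Flat.special (hQ : Crystallographic Q) (hf : ∀ g ∈ Q, ∀ z, g z = z → g = 1)
    (h : Flat Q π) : Special q X := by
  rintro p hp - L ⟨⟨m, hm, s, i₀, e₀, x₀, he₀, hx₀, hs₀, hli⟩, -⟩ φ ⟨i₁, e₁, x₁, he₁, hx₁, hφ⟩
  obtain ⟨Λ, T, hd, hs, hT, hTQ, -⟩ := hQ
  have : IsZLattice ℝ Λ := ⟨hs⟩
  obtain ⟨v, hv⟩ : ∃ v, φ.form i₁ e₁ (e₁ x₁) v ≠ 0 := by
    by_contra hc
    push Not at hc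
    exact hφ (AlternatingMap.ext hc)
  choose c hc hc' using h.ex
  choose ι hι using L.cover
  have h0 : AffineEquiv.constVAdd ℂ (Cm q) (0 : Cm q) ∈ Q := by
    rw [AffineEquiv.constVAdd_zero]; exact Q.one_mem
  obtain ⟨σ, hσ⟩ : ∃ σ : L.ι → Cm q → ℂ, ∀ j z, σ j z = φ.form j (c z) z v := ⟨_, fun _ _ => rfl⟩
  have hσe : ∀ j (e : Chart q X) z, e ∈ atlas (Cm q) X → z ∈ e.target → π z ∈ L.U j →
      σ j z = φ.form j e z v := by
    intro j e z he hz hj
    rw [hσ, h.form_eq hf φ (hc z) he h0 (hc' z) (by rwa [zero_add]) hj, zero_add]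
  have hU : ∀ j z, π z ∈ L.U j → ∀ᶠ y in 𝓝 z, π y ∈ L.U j := fun j z hj =>
    h.cont.continuousAt.eventually ((L.isOpen j).mem_nhds hj)
  have hσa : ∀ j z, π z ∈ L.U j → AnalyticAt ℂ (σ j) z := by
    intro j z hj
    obtain ⟨h1, h2⟩ := h.at_of (hc z) (hc' z)
    have h3 := (φ.holo j (c z) (π z) h1 hj v).analyticAt
    rw [h2] at h3
    refine h3.congr ?_
    filter_upwards [hU j z hj, (c z).open_target.mem_nhds (hc' z)] with y hy hy'
    exact (hσe j (c z) y (hc z) hy' hy).symm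
  have hσg : ∀ i j z, π z ∈ L.U i → π z ∈ L.U j → σ j z = L.g i j (π z) * σ i z := by
    intro i j z hi hj
    obtain ⟨h1, h2⟩ := h.at_of (hc z) (hc' z)
    have h3 := φ.glue i j (c z) (π z) h1 hi hj
    rw [h2] at h3
    rw [hσ, hσ, h3]
    rfl
  have hconst : ∀ t : Sec L m, ∃ k : ℂ, ∀ j z, π z ∈ L.U j → t.f j (π z) * σ j z ^ m = k := by
    intro t
    obtain ⟨P, hP⟩ : ∃ P : Cm q → ℂ, ∀ z, P z = t.f (ι (π z)) (π z) * σ (ι (π z)) z ^ m :=
      ⟨_, fun _ => rfl⟩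
    have hPj : ∀ j z, π z ∈ L.U j → P z = t.f j (π z) * σ j z ^ m := by
      intro j z hj
      rw [hP, t.change j (ι (π z)) (π z) hj (hι _), hσg j (ι (π z)) z hj (hι _), mul_pow]
      ring
    have hPd : Differentiable ℂ P := by
      intro z
      obtain ⟨h1, h2⟩ := h.at_of (hc z) (hc' z)
      have h3 := (t.holo (ι (π z)) (c z) (π z) h1 (hι _)).analyticAt
      rw [h2, h.symm _ (hc z)] at h3
      refine ((h3.mul ((hσa _ z (hι _)).pow m)).congr ?_).differentiableAt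
      filter_upwards [hU _ z (hι _)] with y hy
      exact (hPj _ y hy).symm
    have hPb := (IsZLattice.isCompact_range_of_periodic Λ P hPd.continuous fun z u hu => by
      have h1 : AffineEquiv.constVAdd ℂ (Cm q) u ∈ Q :=
        hTQ ((hT _).2 ⟨u, hu, fun y => add_comm _ _⟩)
      have h2 : π (u + z) = π z := h.inv _ h1 z
      rw [add_comm, hP, hP, h2, hσ, hσ,
        h.form_eq hf φ (hc z) (hc (u + z)) h1 (hc' z) (hc' _) (hι _)]).isBounded
    exact ⟨P 0, fun j z hj => by rw [← hPj j z hj, hPd.apply_eq_apply_of_bounded hPb z 0]⟩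
  choose k hk using hconst
  have hz₀ : π (e₀ x₀) = x₀ := by rw [← h.symm e₀ he₀.1]; exact e₀.left_inv he₀.2
  have hz₁ : π (e₁ x₁) = x₁ := by rw [← h.symm e₁ he₁.1]; exact e₁.left_inv he₁.2
  have hU₀ := hU i₀ (e₀ x₀) (by rwa [hz₀])
  by_cases hk0 : k (s 0) = 0
  · have hZ : IsClopen {z | ∀ᶠ y in 𝓝 z, σ (ι (π y)) y = 0} := by
      refine ⟨isClosed_of_closure_subset fun z hz => ?_, isOpen_setOfPred_eventually_nhds⟩
      obtain ⟨r, hr, hB⟩ := Metric.eventually_nhds_iff_ball.1 (hU _ z (hι (π z)))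
      obtain ⟨y, hy, hyZ⟩ := mem_closure_iff.1 hz _ Metric.isOpen_ball (Metric.mem_ball_self hr)
      have h1 : EqOn (σ (ι (π z))) 0 (Metric.ball z r) := by
        refine AnalyticOnNhd.eqOn_zero_of_preconnected_of_eventuallyEq_zero
          (fun u hu => hσa _ u (hB u hu)) (convex_ball z r).isPreconnected hy ?_
        filter_upwards [hyZ, Metric.isOpen_ball.mem_nhds hy] with u hu hu'
        rw [hσg (ι (π u)) _ u (hι _) (hB u hu'), hu, mul_zero]
        rfl
      filter_upwards [Metric.ball_mem_nhds z hr] with u hu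
      rw [hσg (ι (π z)) _ u (hB u hu) (hι _), h1 hu]
      exact mul_zero _
    have h2 : ∀ᶠ y in 𝓝 (e₀ x₀), (s 0).f i₀ (π y) ≠ 0 := by
      have h3 := ((s 0).holo i₀ e₀ x₀ he₀ hx₀).continuousAt
      rw [h.symm e₀ he₀.1] at h3
      exact h3.eventually_ne (by rwa [hz₀])
    have h4 := hZ.eq_univ ⟨e₀ x₀, by
      filter_upwards [h2, hU₀] with y hy hy'
      have h5 := hk (s 0) i₀ y hy'
      rw [hk0, mul_eq_zero, pow_eq_zero_iff (by omega)] at h5
      rw [hσg i₀ _ y hy' (hι _), h5.resolve_left hy, mul_zero]⟩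
    have h6 : e₁ x₁ ∈ {z | ∀ᶠ y in 𝓝 z, σ (ι (π y)) y = 0} := by rw [h4]; trivial
    have h7 := h6.self_of_nhds
    apply hv
    rw [← hσe i₁ e₁ _ he₁.1 (e₁.map_source he₁.2) (by rwa [hz₁]),
      hσg (ι (π (e₁ x₁))) i₁ _ (hι _) (by rwa [hz₁]), h7, mul_zero]
  · refine hli.ne_zero ⟨0, hp⟩ ?_
    have h1 : (fun z => (s (Fin.succ ⟨0, hp⟩)).f i₀ (e₀.symm z) / (s 0).f i₀ (e₀.symm z))
        =ᶠ[𝓝 (e₀ x₀)] fun _ => k (s (Fin.succ ⟨0, hp⟩)) / k (s 0) := by
      rw [h.symm e₀ he₀.1]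
      filter_upwards [hU₀] with y hy
      have h2 := hk (s 0) i₀ y hy
      have h3 : σ i₀ y ^ m ≠ 0 := fun h4 => hk0 (by rw [← h2, h4, mul_zero])
      rw [← hk _ i₀ y hy, ← h2, mul_div_mul_right _ _ h3]
    rw [h1.fderiv_eq]
    exact fderiv_const_apply _

end Vale.Agent.N284
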