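import Vale.Agent.N284.Str
import Vale.Agent.N284.FlatSp
import Vale.Agent.P284W16.Kap

/-!
# P284: finite coverings with free abelian group, crystallographic quotient, holomorphic convexity
-/

open scoped Manifold ContDiff Topology
open Filter Set

noncomputable section

namespace Vale.Agent.N284

open Vale.Agent.P272.K Vale.Agent.P284 Vale.Agent.P284.H248 Vale.Agent.P284.H894.G
  Vale.Agent.P284W16

variable {n : ℕ} {X : Type} [TopologicalSpace X] [ChartedSpace (Cm n) X]

theorem Holo.continuous {E : Type} [TopologicalSpace E] {p : E → X} (hp : Continuous p)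
    {V : Type} [NormedAddCommGroup V] [NormedSpace ℂ V] {F : E → V} (hF : Holo n p F) :
    Continuous F := by
  rw [continuous_iff_continuousAt]
  intro y
  obtain ⟨f, h1, h2⟩ := hF y (chartAt (Cm n) (p y)) ⟨chart_mem_atlas _ _, mem_chart_source _ _⟩
  have h3 : ContinuousAt (fun y' => f (chartAt (Cm n) (p y) (p y'))) y :=
    ContinuousAt.comp (g := f) h1.continuousAt
      (ContinuousAt.comp (g := chartAt (Cm n) (p y))
        ((chartAt (Cm n) (p y)).continuousAt (mem_chart_source _ _)) hp.continuousAt)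
  exact h3.congr (h2.mono fun y' h => h.symm)

/-- a covering space with a proper holomorphic map to `ℂ^q` is holomorphically convex -/
theorem holConvex_of {E : Type} [TopologicalSpace E] {p : E → X} (hp : Continuous p) {q : ℕ}
    {F : E → Cm q} (hF : Holo n p F) (hP : IsProperMap F) : HolConvex n p := by
  intro K hK
  obtain ⟨R, hR0, hR⟩ := (hK.image hP.continuous).isBounded.exists_pos_norm_le
  refine (hP.isCompact_preimage (isCompact_closedBall (0 : Cm q) R)).of_isClosed_subset ?_ ?_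
  · simp only [Set.ofPred_forall]
    exact isClosed_iInter fun f => isClosed_iInter fun hf => isClosed_iInter fun C =>
      isClosed_iInter fun _ => isClosed_le (hf.continuous hp).norm continuous_const
  · intro y hy
    rw [mem_preimage, mem_closedBall_zero_iff, pi_norm_le_iff_of_nonneg hR0.le]
    intro j
    refine hy (fun z => F z j) ?_ R fun z hz => (norm_le_pi_norm _ j).trans (hR _ ⟨z, hz, rfl⟩)
    intro z e he
    obtain ⟨f, h1, h2⟩ := hF z e he
    exact ⟨fun v => f v j, analyticAt_pi_iff.1 h1 j, h2.mono fun y' h => congrFun h j⟩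

include n in
/-- two simply connected coverings are isomorphic -/
theorem exists_iso {E E' : Type} [TopologicalSpace E] [TopologicalSpace E']
    [SimplyConnectedSpace E] [SimplyConnectedSpace E'] {p : E → X} {p' : E' → X}
    (hp : IsCoveringMap p) (hp' : IsCoveringMap p') (hs : Function.Surjective p') :
    ∃ H : E ≃ₜ E', ∀ y, p' (H y) = p y := by
  have h1 : LocallyPathConnectedSpace E :=
    letI := H885.etaleCS (n := n) hp.isLocalHomeomorph
    ChartedSpace.locallyPathConnectedSpace (Cm n) E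
  have h2 : LocallyPathConnectedSpace E' :=
    letI := H885.etaleCS (n := n) hp'.isLocalHomeomorph
    ChartedSpace.locallyPathConnectedSpace (Cm n) E'
  obtain ⟨y₀⟩ : Nonempty E := inferInstance
  obtain ⟨z₀, hz₀⟩ := hs (p y₀)
  obtain ⟨h, ⟨hh0, hh⟩, -⟩ := hp'.existsUnique_continuousMap_lifts ⟨p, hp.continuous⟩ y₀ z₀ hz₀
  obtain ⟨k, ⟨hk0, hk⟩, -⟩ :=
    hp.existsUnique_continuousMap_lifts ⟨p', hp'.continuous⟩ z₀ y₀ hz₀.symm
  have hh' : ∀ y, p' (h y) = p y := congrFun hh
  have hk' : ∀ z, p (k z) = p' z := congrFun hk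
  have e1 : (fun y => k (h y)) = id :=
    hp.eq_of_comp_eq (k.continuous.comp h.continuous) continuous_id
      (funext fun y => (hk' _).trans (hh' y)) y₀ (by rw [hh0, hk0]; rfl)
  have e2 : (fun z => h (k z)) = id :=
    hp'.eq_of_comp_eq (h.continuous.comp k.continuous) continuous_id
      (funext fun z => (hh' _).trans (hk' z)) z₀ (by rw [hk0, hh0]; rfl)
  exact ⟨⟨⟨h, k, congrFun e1, congrFun e2⟩, h.continuous, k.continuous⟩, hh'⟩

variable [T2Space X] [CompactSpace X] [ConnectedSpace X] [IsManifold 𝓘(ℂ, Cm n) ω X]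

theorem final (hX : ∃ w : Chart n X → Cm n → Matrix (Fin n) (Fin n) ℂ, IsKahler w)
    (hS : IsSpecial n X) (x : X) :
    VirtuallyAbelian (FundamentalGroup X x) ∧
    ∃ q ≤ n,
      (∃ (Y : Type) (_ : TopologicalSpace Y) (_ : ConnectedSpace Y) (π : Y → X),
        IsCoveringMap π ∧ (∀ z, (π ⁻¹' {z}).Finite) ∧
        ∀ y, Nonempty (FundamentalGroup Y y ≃* Multiplicative (Fin (2 * q) → ℤ))) ∧
      ∃ ρ : FundamentalGroup X x →* (Cm q ≃ᵃ[ℂ] Cm q), Finite ρ.ker ∧ Crystallographic ρ.range ∧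
        (∃ (E : Type) (_ : TopologicalSpace E) (_ : SimplyConnectedSpace E) (p : E → X),
          IsCoveringMap p) ∧
        ∀ (E : Type) [TopologicalSpace E] [SimplyConnectedSpace E] (p : E → X), IsCoveringMap p →
          HolConvex n p ∧ ∃ F : E → Cm q, Holo n p F ∧ IsProperMap F ∧ Function.Surjective F ∧
            (∀ φ : E ≃ₜ E, p ∘ φ = p → ∃ g ∈ ρ.range, F ∘ φ = g ∘ F) ∧
            (∀ g ∈ ρ.range, ∃ φ : E ≃ₜ E, p ∘ φ = p ∧ F ∘ φ = g ∘ F) ∧
            ∃ T : Set (Cm q), IsClosed T ∧ interior T = ∅ ∧ ∀ t ∉ T, IsConnected (F ⁻¹' {t}) := by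
  obtain ⟨w, hw⟩ := hX
  have hS' := special_iff.1 hS
  obtain ⟨B, hB1, hB2, -⟩ := Vale.Agent.P284Y.kahler hw hS' x
  have hV : VirtuallyAbelian (FundamentalGroup X x) := ⟨B, hB1, hB2⟩
  refine ⟨hV, ?_⟩
  obtain ⟨E₀, Γ, _, _, _, _, p₀, e, hp₀⟩ := H977.exists_uc (n := n) X x
  obtain ⟨q, hq, ρ, F, ⟨A', hA1, ⟨eA⟩⟩, hker, hcr, hF, hP, heq, T, hT1, hT2, hT3⟩ :=
    structure0 hw hS' hp₀ (H977.virtuallyAbelian_of_injective e.symm.toMonoidHom e.symm.injective hV)
  have hrange : (ρ.comp e.toMonoidHom).range = ρ.range := by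
    rw [MonoidHom.range_comp, MonoidHom.range_eq_top.2 e.surjective, ← MonoidHom.range_eq_map]
  have hsurj : Function.Surjective F := by
    have h1 : Dense (range F) := by
      refine (interior_eq_empty_iff_dense_compl.1 hT2).mono fun t ht => ?_
      obtain ⟨y, hy⟩ := (hT3 t ht).nonempty
      exact ⟨y, hy⟩
    rw [← range_eq_univ, ← hP.isClosed_range.closure_eq, h1.closure_eq]
  refine ⟨q, hq, ?_, ρ.comp e.toMonoidHom, ?_, by rw [hrange]; exact hcr,
    ⟨E₀, inferInstance, inferInstance, p₀, hp₀.cov⟩, fun E _ _ p hp => ?_⟩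
  · obtain ⟨Y, _, _, _, _, _, _, pY, π, -, hπ, hpY, -⟩ := H885.exists_quo n X E₀ Γ p₀ hp₀ A' hA1
    refine ⟨Y, inferInstance, inferInstance, π, hπ, fun z => ?_, fun y => ?_⟩
    · exact (isClosed_singleton.preimage hπ.continuous).isCompact.finite
        ⟨(hπ z).discreteTopology_fiber⟩
    · obtain ⟨y₀, rfl⟩ := hpY.surj y
      have hQ := Vale.Agent.P223.R2.H968.Lift.quot ⟨pY, hpY.cov.continuous⟩ hpY.cont hpY.free
        hpY.cov hpY.surj hpY.orb
      exact ⟨((hQ.fundamentalGroupEquiv (⟨y₀, rfl⟩ : pY ⁻¹' {pY y₀})).trans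
        (MulEquiv.inv' A').symm).trans eA⟩
  · refine Finite.of_injective (fun g : (ρ.comp e.toMonoidHom).ker => (⟨e g, g.2⟩ : ρ.ker)) ?_
    intro a b h
    exact Subtype.ext (e.injective (congrArg (fun k : ρ.ker => (k : Γ)) h))
  · obtain ⟨H, hH⟩ := exists_iso (n := n) hp hp₀.cov hp₀.surj
    have hF' : Holo n p (F ∘ H) := by
      intro y c hc
      obtain ⟨f, h1, h2⟩ := hF (H y) c (by rw [hH]; exact hc)
      rw [hH] at h1
      refine ⟨f, h1, (H.continuous.continuousAt.eventually h2).mono fun y' h => ?_⟩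
      rw [← hH]
      exact h
    have hP' : IsProperMap (F ∘ H) := hP.comp H.isProperMap
    have hsm : ∀ (g : Γ) (z : E₀), p₀ (g • z) = p₀ z := fun g z =>
      ((hp₀.orb z (g • z)).2 ⟨g, rfl⟩).symm
    rw [hrange]
    refine ⟨holConvex_of hp.continuous hF' hP', F ∘ H, hF', hP', hsurj.comp H.surjective,
      fun φ hφ => ?_, ?_, T, hT1, hT2, fun t ht => ?_⟩
    · obtain ⟨y₀⟩ : Nonempty E := inferInstance
      have hφ' : ∀ y, p (φ y) = p y := congrFun hφ
      obtain ⟨g, hg⟩ := (hp₀.orb (H y₀) (H (φ y₀))).1 (by rw [hH, hH, hφ'])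
      have h1 : (fun y => g • H y) = fun y => H (φ y) :=
        hp₀.cov.eq_of_comp_eq ((hp₀.cont g).comp H.continuous) (H.continuous.comp φ.continuous)
          (funext fun y => by
            show p₀ (g • H y) = p₀ (H (φ y))
            rw [hsm, hH, hH, hφ']) y₀ hg
      refine ⟨ρ g, ⟨g, rfl⟩, funext fun y => ?_⟩
      show F (H (φ y)) = ρ g (F (H y))
      rw [← heq, congrFun h1 y]
    · rintro _ ⟨g, rfl⟩
      let τ : E₀ ≃ₜ E₀ := ⟨⟨fun z => g • z, fun z => g⁻¹ • z, fun z => inv_smul_smul g z,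
        fun z => smul_inv_smul g z⟩, hp₀.cont g, hp₀.cont g⁻¹⟩
      refine ⟨(H.trans τ).trans H.symm, funext fun y => ?_, funext fun y => ?_⟩
      · show p (H.symm (g • H y)) = p y
        rw [← hH, H.apply_symm_apply, hsm, hH]
      · show F (H (H.symm (g • H y))) = ρ g (F (H y))
        rw [H.apply_symm_apply, heq]
    · rw [preimage_comp]
      exact H.isConnected_preimage.2 (hT3 t ht)

omit [TopologicalSpace X] [ChartedSpace (Cm n) X] [T2Space X] [CompactSpace X] [ConnectedSpace X]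
  [IsManifold 𝓘(ℂ, Cm n) ω X] in
theorem torsionFree (G : Type) [Group G] (hG : ∀ g : G, IsOfFinOrder g → g = 1) :
    (∀ n, SpecialGroup n G → ∃ q ≤ n, ∃ Q : Subgroup (Cm q ≃ᵃ[ℂ] Cm q),
      Crystallographic Q ∧ Nonempty (Q ≃* G)) ∧
    ∀ (q : ℕ) (Q : Subgroup (Cm q ≃ᵃ[ℂ] Cm q)), Crystallographic Q → Nonempty (Q ≃* G) →
      SpecialGroup q G := by
  constructor
  · rintro n ⟨X, _, _, _, _, _, _, hX, hS, x, ⟨e⟩⟩
    obtain ⟨-, q, hq, -, ρ, hker, hcr, -⟩ := final hX hS x
    refine ⟨q, hq, ρ.range, hcr, ⟨(MonoidHom.ofInjective ?_).symm.trans e⟩⟩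
    rw [← MonoidHom.ker_eq_bot_iff, Subgroup.eq_bot_iff_forall]
    intro g hg
    have h1 : IsOfFinOrder g := 
      ρ.ker.subtype.isOfFinOrder (isOfFinOrder_of_finite (⟨g, hg⟩ : ρ.ker))
    exact e.injective ((hG _ (e.toMonoidHom.isOfFinOrder h1)).trans e.map_one.symm)
  · rintro q Q hQ ⟨e⟩
    have ht : ∀ g ∈ Q, IsOfFinOrder g → g = 1 := by
      intro g hg h
      have h1 : IsOfFinOrder (⟨g, hg⟩ : Q) := Q.subtype_injective.isOfFinOrder_iff.1 h
      exact congrArg Subtype.val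
        (e.injective ((hG _ (e.toMonoidHom.isOfFinOrder h1)).trans e.map_one.symm))
    obtain ⟨X, _, _, _, _, _, _, π, hF, hπ⟩ := exists_flat hQ ht
    obtain ⟨e'⟩ := hπ (π 0)
    exact ⟨X, inferInstance, inferInstance, inferInstance, inferInstance, inferInstance,
      inferInstance, hF.kahler hQ,
      special_iff.2 (hF.special hQ fun g hg z hz => free_of hQ ht hg hz), π 0, ⟨e'.trans e⟩⟩

end Vale.Agent.N284
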