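import Mathlib
import Vale.Agent.N284.Defs

/-!
# P284: the quotient of `ℂ^q` by a torsion free crystallographic group
-/

open scoped Manifold ContDiff Topology
open Filter Set

noncomputable section

namespace Vale.Agent.N284

open Vale.Agent.P272.K

variable {q : ℕ}

theorem aff_eq (g : Cm q ≃ᵃ[ℂ] Cm q) (z : Cm q) : g z = g.linear z + g 0 := by
  have h := g.map_vadd 0 z
  simpa using h

theorem aff_hasFDerivAt (g : Cm q ≃ᵃ[ℂ] Cm q) (z : Cm q) :
    HasFDerivAt g (LinearMap.toContinuousLinearMap g.linear.toLinearMap) z := by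
  have h : (g : Cm q → Cm q) =
      fun z => LinearMap.toContinuousLinearMap g.linear.toLinearMap z + g 0 :=
    funext fun z => aff_eq g z
  rw [h]
  exact (LinearMap.toContinuousLinearMap g.linear.toLinearMap).hasFDerivAt.add_const _

theorem aff_contDiff (g : Cm q ≃ᵃ[ℂ] Cm q) : ContDiff ℂ ω g := by
  have h : (g : Cm q → Cm q) =
      fun z => LinearMap.toContinuousLinearMap g.linear.toLinearMap z + g 0 :=
    funext fun z => aff_eq g z
  rw [h]
  exact (LinearMap.toContinuousLinearMap g.linear.toLinearMap).contDiff.add contDiff_const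

/-- the action of a group of affine maps -/
@[reducible] def act (Q : Subgroup (Cm q ≃ᵃ[ℂ] Cm q)) : MulAction Q (Cm q) where
  smul g z := (g : Cm q ≃ᵃ[ℂ] Cm q) z
  one_smul _ := rfl
  mul_smul _ _ _ := rfl

theorem free_of {Q : Subgroup (Cm q ≃ᵃ[ℂ] Cm q)} (hQ : Crystallographic Q)
    (ht : ∀ g ∈ Q, IsOfFinOrder g → g = 1) {g : Cm q ≃ᵃ[ℂ] Cm q} (hg : g ∈ Q) {z : Cm q}
    (hz : g z = z) : g = 1 := by
  obtain ⟨Λ, T, -, -, hT, -, hfi⟩ := hQ
  obtain ⟨k, hk, -, hk2⟩ := Subgroup.exists_pow_mem_of_index_ne_zero hfi.index_ne_zero ⟨g, hg⟩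
  obtain ⟨v, -, hv⟩ := (hT (g ^ k)).1 hk2
  have h1 : ∀ j : ℕ, (g ^ j) z = z := by
    intro j
    induction j with
    | zero => rfl
    | succ j ih => rw [pow_succ, AffineEquiv.coe_mul, Function.comp_apply, hz, ih]
  have h2 : v = 0 := by
    have := hv z
    rw [h1] at this
    simpa using this
  refine ht g hg (isOfFinOrder_iff_pow_eq_one.2 ⟨k, hk, ?_⟩)
  ext1 y
  rw [hv, h2, add_zero]
  rfl

theorem propDisc {Q : Subgroup (Cm q ≃ᵃ[ℂ] Cm q)} (hQ : Crystallographic Q) {K L : Set (Cm q)}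
    (hK : IsCompact K) (hL : IsCompact L) :
    {g : Q | ((fun z => (g : Cm q ≃ᵃ[ℂ] Cm q) z) '' K ∩ L).Nonempty}.Finite := by
  obtain ⟨Λ, T, hd, -, hT, hTQ, hfi⟩ := hQ
  have hcl : IsClosed (Λ : Set (Cm q)) := @AddSubgroup.isClosed_of_discrete _ _ _ _ _
    Λ.toAddSubgroup (inferInstanceAs (DiscreteTopology Λ))
  have hfin : ∀ r : Q, {t : Q | t ∈ T.subgroupOf Q ∧
      ((fun z => ((r * t : Q) : Cm q ≃ᵃ[ℂ] Cm q) z) '' K ∩ L).Nonempty}.Finite := by
    intro r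
    have hc : IsCompact ((fun x : Cm q × Cm q => ((r⁻¹ : Q) : Cm q ≃ᵃ[ℂ] Cm q) x.1 - x.2) ''
        (L ×ˢ K)) :=
      (hL.prod hK).image (((aff_contDiff _).continuous.comp continuous_fst).sub continuous_snd)
    refine Set.Finite.of_finite_image (f := fun t : Q => (t : Cm q ≃ᵃ[ℂ] Cm q) 0)
      ((Metric.finite_isBounded_inter_isClosed DiscreteTopology.isDiscrete hc.isBounded hcl).subset
        ?_) ?_
    · rintro _ ⟨t, ⟨ht, _, ⟨z, hz, rfl⟩, hz'⟩, rfl⟩
      obtain ⟨v, hv, hv'⟩ := (hT (t : Cm q ≃ᵃ[ℂ] Cm q)).1 ht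
      have h0 : (t : Cm q ≃ᵃ[ℂ] Cm q) 0 = v := by rw [hv', zero_add]
      refine ⟨⟨(_, z), ⟨hz', hz⟩, ?_⟩, by show (t : Cm q ≃ᵃ[ℂ] Cm q) 0 ∈ Λ; rw [h0]; exact hv⟩
      show ((r⁻¹ * (r * t) : Q) : Cm q ≃ᵃ[ℂ] Cm q) z - z = (t : Cm q ≃ᵃ[ℂ] Cm q) 0
      rw [inv_mul_cancel_left, hv' z, h0, add_sub_cancel_left]
    · rintro t ⟨ht, -⟩ t' ⟨ht', -⟩ h
      obtain ⟨v, -, hv⟩ := (hT (t : Cm q ≃ᵃ[ℂ] Cm q)).1 ht
      obtain ⟨v', -, hv'⟩ := (hT (t' : Cm q ≃ᵃ[ℂ] Cm q)).1 ht'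
      have h1 : (t : Cm q ≃ᵃ[ℂ] Cm q) 0 = (t' : Cm q ≃ᵃ[ℂ] Cm q) 0 := h
      rw [hv, hv', zero_add, zero_add] at h1
      ext1
      ext1 z
      rw [hv, hv', h1]
  refine (Set.finite_iUnion fun c : Q ⧸ T.subgroupOf Q =>
    (hfin c.out).image fun t => c.out * t).subset fun g hg => ?_
  refine mem_iUnion.2 ⟨(g : Q ⧸ T.subgroupOf Q), (g : Q ⧸ T.subgroupOf Q).out⁻¹ * g, ⟨?_, ?_⟩,
    mul_inv_cancel_left _ _⟩
  · rw [← QuotientGroup.eq]
    exact QuotientGroup.out_eq' _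
  · rw [mul_inv_cancel_left]
    exact hg

/-- `X` is the quotient of `ℂ^q` by `Q`, its charts are the local inverses of the projection -/
structure Flat (Q : Subgroup (Cm q ≃ᵃ[ℂ] Cm q)) {X : Type} [TopologicalSpace X]
    [ChartedSpace (Cm q) X] (π : Cm q → X) : Prop where
  cont : Continuous π
  inv : ∀ g ∈ Q, ∀ z, π (g z) = π z
  symm : ∀ e : Chart q X, e ∈ atlas (Cm q) X → ⇑e.symm = π
  ex : ∀ z, ∃ e : Chart q X, e ∈ atlas (Cm q) X ∧ z ∈ e.target
  trans : ∀ (e e' : Chart q X) x, At e x → At e' x →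
    ∃ g ∈ Q, (fun z => e' (e.symm z)) =ᶠ[𝓝 (e x)] g

theorem exists_flat {Q : Subgroup (Cm q ≃ᵃ[ℂ] Cm q)} (hQ : Crystallographic Q)
    (ht : ∀ g ∈ Q, IsOfFinOrder g → g = 1) :
    ∃ (X : Type) (_ : TopologicalSpace X) (_ : T2Space X) (_ : CompactSpace X)
      (_ : ConnectedSpace X) (_ : ChartedSpace (Cm q) X) (_ : IsManifold 𝓘(ℂ, Cm q) ω X)
      (π : Cm q → X), Flat Q π ∧ ∀ x, Nonempty (FundamentalGroup X x ≃* Q) := by
  let _ := act Q
  have _ : ContinuousConstSMul Q (Cm q) := ⟨fun g => (aff_contDiff g.1).continuous⟩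
  have _ : ProperlyDiscontinuousSMul Q (Cm q) := ⟨fun hK hL => propDisc hQ hK hL⟩
  have _ : IsCancelSMul Q (Cm q) :=
    { right_cancel' := fun a b z h => by
        have h1 : (b⁻¹ * a) • z = z := by rw [mul_smul, h, inv_smul_smul]
        have h2 : b⁻¹ * a = 1 := Subtype.ext (free_of hQ ht (b⁻¹ * a).2 h1)
        exact (inv_mul_eq_one.1 h2).symm }
  let X := MulAction.orbitRel.Quotient Q (Cm q)
  let π : Cm q → X := Quotient.mk (MulAction.orbitRel Q (Cm q))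
  have hq : IsQuotientCoveringMap π Q := isQuotientCoveringMap_quotientMk_of_properlyDiscontinuousSMul
  have hloc := hq.isCoveringMap.isLocalHomeomorph
  have hsurj : Function.Surjective π := hq.surjective
  have hinv : ∀ g ∈ Q, ∀ z, π (g z) = π z := fun g hg z => hq.map_smul ⟨g, hg⟩
  have hT2 : T2Space X := t2Space_of_properlyDiscontinuousSMul_of_t2Space
  have hcpt : CompactSpace X := by
    obtain ⟨Λ, T, hd, hs, hT, hTQ, -⟩ := hQ
    have : IsZLattice ℝ Λ := ⟨hs⟩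
    have h1 := IsZLattice.isCompact_range_of_periodic Λ π hq.continuous fun z v hv =>
      hinv (AffineEquiv.constVAdd ℂ (Cm q) v) (hTQ ((hT _).2 ⟨v, hv, fun y => add_comm _ _⟩)) z ▸
        congrArg π (add_comm _ _)
    rw [hsurj.range_eq] at h1
    exact ⟨h1⟩
  have hcon : ConnectedSpace X := hsurj.connectedSpace hq.continuous
  let cs : ChartedSpace (Cm q) X :=
    { atlas := {e | ⇑e.symm = π}
      chartAt := fun x => (hloc (hsurj x).choose).choose.symm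
      mem_chart_source := fun x => by
        obtain ⟨h1, h2⟩ := (hloc (hsurj x).choose).choose_spec
        have h3 := (hloc (hsurj x).choose).choose.map_source h1
        rw [← h2, (hsurj x).choose_spec] at h3
        exact h3
      chart_mem_atlas := fun x => (hloc (hsurj x).choose).choose_spec.2.symm }
  have htr : ∀ (e e' : Chart q X) x, At e x → At e' x →
      ∃ g ∈ Q, (fun z => e' (e.symm z)) =ᶠ[𝓝 (e x)] g := by
    intro e e' x he he'
    have h1 : ⇑e.symm = π := he.1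
    have h2 : ⇑e'.symm = π := he'.1
    have h3 : π (e x) = x := by rw [← h1]; exact e.left_inv he.2
    have h4 : π (e' x) = x := by rw [← h2]; exact e'.left_inv he'.2
    obtain ⟨g, hg⟩ := hq.apply_eq_iff_mem_orbit.1 (h4.trans h3.symm)
    have hg' : (g : Cm q ≃ᵃ[ℂ] Cm q) (e x) = e' x := hg
    refine ⟨g, g.2, ?_⟩
    have h5 : ∀ᶠ z in 𝓝 (e x), (g : Cm q ≃ᵃ[ℂ] Cm q) z ∈ e'.target :=
      (aff_contDiff g.1).continuous.continuousAt.eventually
        (by rw [hg']; exact e'.open_target.mem_nhds (e'.map_source he'.2))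
    filter_upwards [h5] with z hz
    rw [h1, ← hinv g g.2 z, ← h2]
    exact e'.right_inv hz
  have hman : IsManifold 𝓘(ℂ, Cm q) ω X := by
    refine isManifold_of_contDiffOn _ _ _ fun e e' he he' z hz => ?_
    simp only [mfld_simps] at hz ⊢
    obtain ⟨g, -, hg⟩ := htr e e' (e.symm z) ⟨he, e.map_target hz.1⟩ ⟨he', hz.2⟩
    rw [e.right_inv hz.1] at hg
    exact ((aff_contDiff g).contDiffAt.congr_of_eventuallyEq hg).contDiffWithinAt
  refine ⟨X, inferInstance, hT2, hcpt, hcon, cs, hman, π,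
    ⟨hq.continuous, hinv, fun e he => he, fun z => ?_, htr⟩, fun x => ?_⟩
  · obtain ⟨e, h1, h2⟩ := hloc z
    exact ⟨e.symm, h2.symm, h1⟩
  · obtain ⟨z, rfl⟩ := hsurj x
    exact ⟨(hq.fundamentalGroupEquiv (⟨z, rfl⟩ : π ⁻¹' {π z})).trans (MulEquiv.inv' Q).symm⟩

end Vale.Agent.N284
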