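import Mathlib

/-!
# P284: group theory for the structure theorem
-/

namespace Vale.Agent.N284

open Module

/-- an element of infinite order of an abelian group is detected by a real character -/
theorem exists_char {M : Type} [AddCommGroup M] {m : M} (hm : ¬ IsOfFinAddOrder m) :
    ∃ φ : M →+ ℝ, φ m ≠ 0 := by
  have hB : Module.Baer ℤ ℝ := Module.Baer.of_divisible ℝ
  have hinj : Function.Injective (LinearMap.toSpanSingleton ℤ M m) := by
    rw [← LinearMap.ker_eq_bot, Submodule.eq_bot_iff]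
    intro k hk
    rw [LinearMap.mem_ker, LinearMap.toSpanSingleton_apply] at hk
    by_contra h0
    exact hm (isOfFinAddOrder_iff_zsmul_eq_zero.2 ⟨k, h0, hk⟩)
  obtain ⟨φ, hφ⟩ := hB.extension_property _ hinj (LinearMap.toSpanSingleton ℤ ℝ 1)
  refine ⟨φ.toAddMonoidHom, ?_⟩
  have h1 := LinearMap.congr_fun hφ 1
  simp only [LinearMap.comp_apply, LinearMap.toSpanSingleton_apply, one_smul] at h1
  show φ m ≠ 0
  rw [h1]
  exact one_ne_zero

/-- the commutative group structure of a subgroup whose elements commute -/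
@[reducible] def commOf {Γ : Type} [Group Γ] (H : Subgroup Γ)
    (h : ∀ a ∈ H, ∀ b ∈ H, a * b = b * a) : CommGroup H :=
  { (inferInstance : Group H) with mul_comm := fun a b => Subtype.ext (h a a.2 b b.2) }

/-- the kernel of the periods is finite -/
theorem finite_ker {Γ : Type} [Group Γ] (G K B : Subgroup Γ) (hG : G.FiniteIndex)
    (hB : B.FiniteIndex) (hc : ∀ a ∈ B, ∀ b ∈ B, a * b = b * a) (hKG : K ≤ G)
    (hfg : Group.FG (K.subgroupOf G))
    (hmax : ∀ G' : Subgroup Γ, G'.FiniteIndex → G' ≤ G → ∀ φ : Γ → ℝ,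
      (∀ g ∈ G', ∀ h ∈ G', φ (g * h) = φ g + φ h) → ∀ g ∈ G', g ∈ K → φ g = 0) : Finite K := by
  classical
  have hfgK : Group.FG K :=
    Group.fg_of_surjective (f := (Subgroup.subgroupOfEquivOfLe hKG).toMonoidHom)
      (Subgroup.subgroupOfEquivOfLe hKG).surjective
  have hfi : (B.subgroupOf K).FiniteIndex := inferInstance
  have hfg2 : Group.FG (B.subgroupOf K) := Subgroup.fg_of_index_ne_zero _
  have htor : ∀ g ∈ K, g ∈ B → IsOfFinOrder g := by
    intro g hgK hgB
    let _ := commOf (G ⊓ B) fun a ha b hb => hc a ha.2 b hb.2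
    by_contra hne
    have h1 : ¬ IsOfFinAddOrder (Additive.ofMul (⟨g, hKG hgK, hgB⟩ : (G ⊓ B : Subgroup Γ))) := by
      rw [isOfFinAddOrder_ofMul_iff]
      intro h
      exact hne ((G ⊓ B).subtype.isOfFinOrder h)
    obtain ⟨φ, hφ⟩ := exists_char h1
    have h2 := hmax (G ⊓ B) inferInstance inf_le_left
      (fun x => if h : x ∈ G ⊓ B then φ (Additive.ofMul ⟨x, h⟩) else 0) (by
        intro a ha b hb
        simp only [dif_pos ha, dif_pos hb, dif_pos ((G ⊓ B).mul_mem ha hb)]
        rw [← map_add]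
        rfl) g ⟨hKG hgK, hgB⟩ hgK
    rw [dif_pos (show g ∈ G ⊓ B from ⟨hKG hgK, hgB⟩)] at h2
    exact hφ h2
  have hfin : Finite (B.subgroupOf K) := by
    let _ := commOf (B.subgroupOf K) fun a ha b hb => Subtype.ext (hc a ha b hb)
    refine CommGroup.finite_of_fg_isMulTorsion _ fun g => ?_
    have h1 := htor g.1.1 g.1.2 g.2
    have hi : Function.Injective (K.subtype.comp (B.subgroupOf K).subtype) :=
      K.subtype_injective.comp (B.subgroupOf K).subtype_injective
    exact hi.isOfFinOrder_iff.1 h1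
  exact Finite.of_subgroup_quotient (B.subgroupOf K)

/-- a subgroup with finitely many elements in each ball is discrete -/
theorem discrete_of {V : Type} [NormedAddCommGroup V] (Λ : Submodule ℤ V)
    (h : ∀ R : ℝ, {v | v ∈ Λ ∧ ‖v‖ ≤ R}.Finite) : DiscreteTopology Λ := by
  refine discreteTopology_of_isOpen_singleton_zero ?_
  have h1 : {v : Λ | ‖(v : V)‖ < 1}.Finite := by
    refine Set.Finite.of_finite_image ((h 1).subset ?_) Subtype.val_injective.injOn
    rintro _ ⟨v, hv, rfl⟩
    exact ⟨v.2, le_of_lt hv⟩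
  have h2 : IsOpen {v : Λ | ‖(v : V)‖ < 1} := isOpen_lt (by fun_prop) continuous_const
  have h3 : ({0} : Set Λ) = {v : Λ | ‖(v : V)‖ < 1} \ ({v : Λ | ‖(v : V)‖ < 1} \ {0}) := by
    ext v
    simp only [Set.mem_singleton_iff, Set.mem_sdiff, Set.mem_ofPred_eq, not_and, not_not]
    constructor
    · rintro rfl
      simp
    · exact fun hv => hv.2 hv.1
  rw [h3]
  exact h2.sdiff (h1.subset Set.sdiff_subset).isClosed

/-- an abelian group which maps with finite kernel onto a lattice contains `ℤ^r` with finite index -/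
theorem exists_free {M V : Type} [AddCommGroup M] [NormedAddCommGroup V] [NormedSpace ℝ V]
    [FiniteDimensional ℝ V] (φ : M →+ V) (hker : Finite φ.ker)
    (hdisc : ∀ R : ℝ, {v | (∃ g, φ g = v) ∧ ‖v‖ ≤ R}.Finite)
    (hspan : Submodule.span ℝ (Set.range φ) = ⊤) {r : ℕ} (hr : finrank ℝ V = r) :
    ∃ ψ : (Fin r → ℤ) →+ M, Function.Injective ψ ∧ ψ.range.FiniteIndex := by
  let Λ : Submodule ℤ V := LinearMap.range φ.toIntLinearMap
  have hΛ : (Λ : Set V) = Set.range φ := rfl
  have hd : DiscreteTopology Λ := discrete_of Λ hdisc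
  have hz : IsZLattice ℝ Λ := ⟨by rw [hΛ]; exact hspan⟩
  have hfree := ZLattice.module_free ℝ Λ
  have hfin := ZLattice.module_finite ℝ Λ
  have hrk : finrank ℤ Λ = r := by rw [ZLattice.rank ℝ Λ, hr]
  let b : Basis (Fin r) ℤ Λ := Module.finBasisOfFinrankEq ℤ Λ hrk
  choose g hg using fun i => (b i).2
  let ψ : (Fin r → ℤ) →ₗ[ℤ] M := Fintype.linearCombination ℤ g
  have hψ : ∀ a, φ (ψ a) = (b.equivFun.symm a : V) := by
    intro a
    simp only [ψ, Fintype.linearCombination_apply, map_sum, map_zsmul, Basis.equivFun_symm_apply,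
      Submodule.coe_sum, Submodule.coe_smul]
    exact Finset.sum_congr rfl fun i _ => by rw [← hg i]; rfl
  refine ⟨ψ.toAddMonoidHom, ?_, ?_⟩
  · intro a a' h
    have h1 : φ (ψ a) = φ (ψ a') := congrArg φ h
    rw [hψ, hψ] at h1
    exact b.equivFun.symm.injective (Subtype.ext h1)
  · have hs : Function.Surjective
        (fun k : φ.ker => (QuotientAddGroup.mk (k : M) : M ⧸ ψ.toAddMonoidHom.range)) := by
      intro x
      obtain ⟨m, rfl⟩ := QuotientAddGroup.mk_surjective x
      refine ⟨⟨m - ψ (b.equivFun ⟨φ m, m, rfl⟩), ?_⟩, ?_⟩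
      · rw [AddMonoidHom.mem_ker, map_sub, hψ, LinearEquiv.symm_apply_apply, sub_self]
      · rw [QuotientAddGroup.eq]
        exact ⟨b.equivFun ⟨φ m, m, rfl⟩, by simp⟩
    have := Finite.of_surjective _ hs
    exact AddSubgroup.finiteIndex_of_finite_quotient

end Vale.Agent.N284
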