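import Vale.Agent.N284.Final

/-!
# Special compact Kaehler manifolds: the structure of the fundamental group and of the universal covering
-/

open scoped Manifold ContDiff
open Vale.Agent.P272.K Vale.Agent.P284.H248 Vale.Agent.P284W16 Vale.Agent.N284

namespace Vale.Agent.N284.OldCrystallographic

theorem crystallographic_structure :
    (∀ (n : ℕ) (X : Type) [TopologicalSpace X] [T2Space X] [CompactSpace X] [ConnectedSpace X]
      [ChartedSpace (Cm n) X] [IsManifold 𝓘(ℂ, Cm n) ω X],
      (∃ w : Chart n X → Cm n → Matrix (Fin n) (Fin n) ℂ, IsKahler w) → IsSpecial n X → ∀ x : X,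
      ∃ q ≤ n,
        -- (1) a connected finite unramified cover with fundamental group `ℤ^(2q)`
        (∃ (Y : Type) (_ : TopologicalSpace Y) (_ : ConnectedSpace Y) (π : Y → X),
          IsCoveringMap π ∧ (∀ z, (π ⁻¹' {z}).Finite) ∧
          ∀ y, Nonempty (FundamentalGroup Y y ≃* Multiplicative (Fin (2 * q) → ℤ))) ∧
        -- (2) finite by complex crystallographic
        ∃ ρ : FundamentalGroup X x →* (Cm q ≃ᵃ[ℂ] Cm q), Finite ρ.ker ∧ Crystallographic ρ.range ∧
          -- (3) the universal covering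
          (∃ (E : Type) (_ : TopologicalSpace E) (_ : SimplyConnectedSpace E) (p : E → X),
            IsCoveringMap p) ∧
          ∀ (E : Type) [TopologicalSpace E] [SimplyConnectedSpace E] (p : E → X), IsCoveringMap p →
            HolConvex n p ∧ ∃ F : E → Cm q, Holo n p F ∧ IsProperMap F ∧ Function.Surjective F ∧
              Induces p F ρ.range ∧
              ∃ T : Set (Cm q), IsClosed T ∧ interior T = ∅ ∧ ∀ t ∉ T, IsConnected (F ⁻¹' {t})) ∧
    -- (4) the torsion free groups which occur are exactly the crystallographic ones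
    ∀ (G : Type) [Group G], (∀ g : G, IsOfFinOrder g → g = 1) →
      (∀ n, SpecialGroup n G → ∃ q ≤ n, CrystGroup q G) ∧
      ∀ q, CrystGroup q G → SpecialGroup q G := by
  refine ⟨fun _ _ _ _ _ _ _ _ hX hS x => ?_, fun G _ hG => ⟨(torsionFree G hG).1, ?_⟩⟩
  · obtain ⟨-, q, hq, h2, ρ, h3, h4, h5, h6⟩ := final hX hS x
    refine ⟨q, hq, h2, ρ, h3, h4, h5, fun E _ _ p hp => ?_⟩
    obtain ⟨a1, F, a2, a3, a4, a5, a6, a7⟩ := h6 E p hp
    exact ⟨a1, F, a2, a3, a4, ⟨a5, a6⟩, a7⟩
  · rintro q ⟨Q, hQ, e⟩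
    exact (torsionFree G hG).2 q Q hQ e

end Vale.Agent.N284.OldCrystallographic
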