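import Vale.Agent.P284Y.Final
import Vale.Agent.N284.Defs
import Vale.Agent.N284.Grp

/-!
# P284: the structure of the universal covering of a special compact Kähler manifold
-/

open scoped Manifold ContDiff Topology
open Filter Set

noncomputable section

namespace Vale.Agent.N284

open Vale.Agent.P272.K Vale.Agent.P284 Vale.Agent.P284.H248 Vale.Agent.P284.H894.G
  Vale.Agent.P284.H894.W Vale.Agent.P284.H494.N

section grp
variable {Γ : Type} [Group Γ] {G : Subgroup Γ} {N : ℕ} {A : Γ →* (Cm N ≃ₗ[ℂ] Cm N)}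
  {c : Γ → Cm N}

/-- the affine action -/
def aff (hD : ADat Γ G N A c) : Γ →* (Cm N ≃ᵃ[ℂ] Cm N) :=
  MonoidHom.mk' (fun g => (A g).toAffineEquiv.trans (AffineEquiv.constVAdd ℂ (Cm N) (c g))) (by
    intro g h
    ext1 v
    show c (g * h) + A (g * h) v = c g + A g (c h + A h v)
    rw [hD.coc, map_mul, map_add, LinearEquiv.mul_apply]
    abel)

theorem aff_apply (hD : ADat Γ G N A c) (g : Γ) (v : Cm N) : aff hD g v = A g v + c g :=
  add_comm _ _

theorem aff_of_mem (hD : ADat Γ G N A c) {g : Γ} (hg : g ∈ G) (v : Cm N) :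
    aff hD g v = v + c g := by
  rw [aff_apply, hD.one g hg]; rfl

/-- the periods as an additive homomorphism -/
def perHom (hD : ADat Γ G N A c) (H : Subgroup Γ) (hH : H ≤ G) : Additive H →+ Cm N :=
  AddMonoidHom.mk' (fun g => c (Additive.toMul g : H)) fun g h =>
    hD.lat.add ⟨_, hH (Additive.toMul g).2⟩ ⟨_, hH (Additive.toMul h).2⟩

theorem finite_aff_ker (hD : ADat Γ G N A c) {K : Subgroup Γ}
    (hK : ∀ g, g ∈ K ↔ g ∈ G ∧ c g = 0) [Finite K] : Finite (aff hD).ker := by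
  have := hD.fi
  have h1 : Finite (G.subgroupOf (aff hD).ker) := by
    refine Finite.of_injective
      (fun g : G.subgroupOf (aff hD).ker => (⟨g.1.1, (hK _).2 ⟨g.2, ?_⟩⟩ : K)) ?_
    · have h2 := aff_of_mem hD (show g.1.1 ∈ G from g.2) 0
      rw [show aff hD g.1.1 = 1 from g.1.2, zero_add] at h2
      exact h2.symm
    · intro a b h
      exact Subtype.ext (Subtype.ext (congrArg (fun k : K => (k : Γ)) h))
  exact Finite.of_subgroup_quotient (G.subgroupOf (aff hD).ker)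

theorem cryst (hD : ADat Γ G N A c) : Crystallographic (aff hD).range := by
  have := hD.fi
  refine ⟨AddSubgroup.toIntSubmodule (perHom hD G le_rfl).range, G.map (aff hD), ?_, ?_, ?_, ?_, ?_⟩
  · exact discrete_of _ fun R => (hD.lat.disc R).subset fun v hv => by
      obtain ⟨⟨g, hg⟩, hR⟩ := hv
      exact ⟨⟨Additive.toMul g, hg⟩, hR⟩
  · rw [← hD.lat.span]
    rfl
  · intro g
    constructor
    · rintro ⟨x, hx, rfl⟩
      exact ⟨c x, ⟨Additive.ofMul ⟨x, hx⟩, rfl⟩, aff_of_mem hD hx⟩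
    · rintro ⟨v, ⟨x, rfl⟩, hv⟩
      refine ⟨(Additive.toMul x : G), (Additive.toMul x).2, ?_⟩
      ext1 z
      rw [hv z, aff_of_mem hD (Additive.toMul x).2]
      rfl
  · exact Subgroup.map_le_range _ _
  · have h1 : (G.map (aff hD)).subgroupOf (aff hD).range = G.map (aff hD).rangeRestrict := by
      ext ⟨y, hy⟩
      rw [Subgroup.mem_subgroupOf, Subgroup.mem_map, Subgroup.mem_map]
      exact exists_congr fun x => and_congr_right fun _ => by
        rw [Subtype.ext_iff]; rfl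
    rw [h1]
    exact ⟨fun h0 => hD.fi.index_ne_zero (Nat.eq_zero_of_zero_dvd
      (h0 ▸ G.index_map_dvd (aff hD).rangeRestrict_surjective))⟩

theorem free_sub (hD : ADat Γ G N A c) {K B : Subgroup Γ}
    (hK : ∀ g, g ∈ K ↔ g ∈ G ∧ c g = 0) [Finite K] (hB : B.FiniteIndex)
    (hc : ∀ a ∈ B, ∀ b ∈ B, a * b = b * a) :
    ∃ A' : Subgroup Γ, A'.FiniteIndex ∧ Nonempty (A' ≃* Multiplicative (Fin (2 * N) → ℤ)) := by
  have := hD.fi
  let _ := commOf (G ⊓ B) fun a ha b hb => hc a ha.2 b hb.2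
  refine (exists_free (M := Additive (G ⊓ B : Subgroup Γ))
    (perHom hD (G ⊓ B) inf_le_left) (r := 2 * N) ?_ ?_ ?_
    (by rw [finrank_real_of_complex, Module.finrank_fin_fun])).elim fun ψ ⟨hψ, hfi⟩ => ?_
  rotate_right
  · let f : Multiplicative (Fin (2 * N) → ℤ) →* (G ⊓ B : Subgroup Γ) :=
      AddMonoidHom.toMultiplicativeLeft ψ
    have hf : Function.Injective ((G ⊓ B).subtype.comp f) :=
      (G ⊓ B).subtype_injective.comp hψ
    refine ⟨((G ⊓ B).subtype.comp f).range, ?_, ⟨(MonoidHom.ofInjective hf).symm⟩⟩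
    have h1 : f.range.FiniteIndex := by
      have h2 : f.range = ψ.range.toSubgroup' := by
        ext x
        exact Iff.rfl
      rw [h2]
      exact ⟨hfi.index_ne_zero⟩
    rw [MonoidHom.range_comp]
    exact ⟨by
      rw [Subgroup.index_map_subtype]
      exact mul_ne_zero h1.index_ne_zero Subgroup.FiniteIndex.index_ne_zero⟩
  · refine Finite.of_injective (fun g : (perHom hD (G ⊓ B) inf_le_left).ker =>
      (⟨(Additive.toMul g.1 : (G ⊓ B : Subgroup Γ)),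
        (hK _).2 ⟨(Additive.toMul g.1).2.1, g.2⟩⟩ : K)) ?_
    intro a b h
    exact Subtype.ext (Subtype.ext (congrArg (fun k : K => (k : Γ)) h))
  · intro R
    refine (hD.lat.disc R).subset ?_
    rintro v ⟨⟨g, hg⟩, hR⟩
    exact ⟨⟨⟨_, (Additive.toMul g).2.1⟩, hg⟩, hR⟩
  · rw [eq_top_iff, ← hD.lat.span, Submodule.span_le]
    rintro _ ⟨g, rfl⟩
    obtain ⟨k, hk, -, hk2⟩ := Subgroup.exists_pow_mem_of_index_ne_zero
      (H := G ⊓ B) Subgroup.FiniteIndex.index_ne_zero (g : Γ)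
    have h1 := hD.lat.map_zpow g k
    have h2 : c g = (k : ℝ)⁻¹ • c ((g : Γ) ^ k) := by
      have h3 : c ((g : Γ) ^ k) = (k : ℝ) • c g := by simpa using h1
      have h4 : (k : ℝ) ≠ 0 := by exact_mod_cast hk.ne'
      rw [h3, smul_smul, inv_mul_cancel₀ h4, one_smul]
    show c g ∈ _
    rw [h2]
    exact Submodule.smul_mem _ _ (Submodule.subset_span ⟨Additive.ofMul ⟨_, hk2⟩, rfl⟩)

end grp

variable {n : ℕ} {X : Type} [TopologicalSpace X] [T2Space X] [CompactSpace X] [ConnectedSpace X]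
  [ChartedSpace (Cm n) X] [IsManifold 𝓘(ℂ, Cm n) ω X]

omit [ConnectedSpace X] [ChartedSpace (Cm n) X] [IsManifold 𝓘(ℂ, Cm n) ω X] in
/-- an equivariant map with discrete periods and finite kernel is proper -/
theorem proper_of {E Γ : Type} [TopologicalSpace E] [Group Γ] [MulAction Γ E] {p : E → X}
    (hp : IsGalois Γ p) {G K : Subgroup Γ} {N : ℕ} {A : Γ →* (Cm N ≃ₗ[ℂ] Cm N)} {c : Γ → Cm N}
    (hD : ADat Γ G N A c) (hK : ∀ g, g ∈ K ↔ g ∈ G ∧ c g = 0) [Finite K] {F : E → Cm N}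
    (hF : Continuous F) (heq : ∀ g ∈ G, ∀ y, F (g • y) = F y + c g) : IsProperMap F := by
  rw [isProperMap_iff_isCompact_preimage]
  refine ⟨hF, fun C hC => ?_⟩
  obtain ⟨Q, hQ, hQ'⟩ := H885.exists_fund_fi hp G hD.fi
  obtain ⟨R₁, hR₁⟩ := hC.isBounded.exists_norm_le
  obtain ⟨R₂, hR₂⟩ := (hQ.image hF).isBounded.exists_norm_le
  have hfin : {g : G | ‖c g‖ ≤ R₂ + R₁}.Finite := by
    refine Set.Finite.of_finite_fibers (fun g : G => c g) ((hD.lat.disc (R₂ + R₁)).subset ?_) ?_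
    · rintro _ ⟨g, hg, rfl⟩
      exact ⟨⟨g, rfl⟩, hg⟩
    · rintro _ ⟨g₀, -, rfl⟩
      refine Set.Finite.subset (Set.finite_range fun k : K =>
        g₀ * (⟨k, ((hK _).1 k.2).1⟩ : G)) ?_
      rintro g ⟨-, hg⟩
      have h1 : c g = c g₀ := hg
      refine ⟨⟨(g₀⁻¹ * g : G), (hK _).2 ⟨(g₀⁻¹ * g).2, ?_⟩⟩, ?_⟩
      · have h2 := hD.lat.add g₀⁻¹ g
        rw [hD.lat.map_inv] at h2
        rw [h2, h1, neg_add_cancel]
      · exact mul_inv_cancel_left g₀ g
  refine (hfin.isCompact_biUnion fun g _ => hQ.image (hp.cont (g : Γ)⁻¹)).of_isClosed_subset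
    (hC.isClosed.preimage hF) fun y hy => ?_
  obtain ⟨g, hg, hgy⟩ := hQ' y
  refine mem_biUnion (x := (⟨g, hg⟩ : G)) ?_ ⟨g • y, hgy, inv_smul_smul g y⟩
  have h1 : c g = F (g • y) - F y := by rw [heq g hg]; abel
  show ‖c g‖ ≤ R₂ + R₁
  rw [h1]
  exact (norm_sub_le _ _).trans (add_le_add (hR₂ _ ⟨_, hgy, rfl⟩) (hR₁ _ hy))

/-- the structure theorem for one universal covering -/
theorem structure0 {w : Chart n X → Cm n → Matrix (Fin n) (Fin n) ℂ} (hw : IsKahler w)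
    (hS : Special n X) {E Γ : Type} [TopologicalSpace E] [SimplyConnectedSpace E] [Group Γ]
    [MulAction Γ E] {p : E → X} (hp : IsGalois Γ p) (hV : VirtuallyAbelian Γ) :
    ∃ q ≤ n, ∃ (ρ : Γ →* (Cm q ≃ᵃ[ℂ] Cm q)) (F : E → Cm q),
      (∃ A' : Subgroup Γ, A'.FiniteIndex ∧ Nonempty (A' ≃* Multiplicative (Fin (2 * q) → ℤ))) ∧
      Finite ρ.ker ∧ Crystallographic ρ.range ∧ Holo n p F ∧ IsProperMap F ∧
      (∀ g y, F (g • y) = ρ g (F y)) ∧
      ∃ T : Set (Cm q), IsClosed T ∧ interior T = ∅ ∧ ∀ t ∉ T, IsConnected (F ⁻¹' {t}) := by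
  obtain ⟨B, hB, hc⟩ := hV
  obtain ⟨G, K, N, F, A, c, hAl, hD, heq, -, ⟨T, hT1, hT2, hT3⟩, hfg, hN⟩ :=
    H213.N.prepN H213.N.albUK_noV H608.SA.mfN (H553.K8.spKN n X w hw hS) hw hp
  have : Finite K := finite_ker G K B hD.fi hB hc (fun g hg => ((hAl.mem g).1 hg).1) hfg
    fun G' h1 h2 φ hφ g hg hgK => hAl.max G' h1 h2 φ hφ g hg ((hAl.mem g).1 hgK).2
  obtain ⟨b, hb⟩ := hAl.hol
  refine ⟨N, hN, aff hD, F, free_sub hD hAl.mem hB hc, finite_aff_ker hD hAl.mem, cryst hD, ?_,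
    proper_of hp hD hAl.mem (H221.holB_cont hp.cov hb) hAl.equiv,
    fun g y => by rw [heq, aff_apply], T, hT1, hT2, fun t ht => (hT3 t ht).1⟩
  intro y e he
  obtain ⟨f, h1, h2⟩ := H174.holB_locAn hb y e he
  exact ⟨f, h2, h1⟩

end Vale.Agent.N284
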